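import Vale.Agent.P165.Pad.Law
import Vale.Agent.P165.TL.Main
import Vale.Agent.P165.SG.Classes

/-!
# Nonuniqueness phases without regularity
-/

namespace Vale.Agent.P165

open Finset

/-- Every connected locally finite graph with an action with finitely many orbits is the old part
of a connected regular one with the same action and the same thresholds. -/
theorem Pad.exists_regular {Γ V : Type} [Group Γ] {G : SimpleGraph V} (hc : G.Connected)
    (hf : ∀ v, (G.neighborSet v).Finite) (Φ : Γ →* (G ≃g G)) (R : Finset V)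
    (cover : ∀ v, ∃ g, Φ g v ∈ R) :
    ∃ (W : Type) (H : SimpleGraph W) (d : ℕ) (Ψ : Γ →* (H ≃g H)) (R' : Finset W) (ρ : W → V),
      H.Connected ∧ (∀ x, (H.neighborSet x).encard = d) ∧ (∀ x, ∃ g, Ψ g x ∈ R') ∧
      (∀ g x, ρ (Ψ g x) = Φ g (ρ x)) ∧
      ((∀ g v, Φ g v = v → g = 1) → ∀ g x, Ψ g x = x → g = 1) ∧
      pc H = pc G ∧ pu H = pu G := by
  classical
  set m := R.sup (fun v => (G.neighborSet v).ncard) + 1 with hm
  have hD : ∀ v, (G.neighborSet v).ncard ≤ 2 * m + 1 := fun v => by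
    obtain ⟨g, hg⟩ := cover v
    have := Finset.le_sup (f := fun v => (G.neighborSet v).ncard) hg
    simp only [Pad.ncard_iso] at this
    omega
  obtain ⟨hpc, hpu⟩ := Pad.pad_thresholds (m := m) hc hf hD
  refine ⟨_, Pad.padGraph G m, 2 * m + 1, Pad.padHom Φ,
    R.image Sum.inl ∪
      ((R ×ˢ (univ ×ˢ univ)).subtype fun q : V × Fin (2 * m + 1) × Pad.Gad m =>
        (q.2.1 : ℕ) + (G.neighborSet q.1).ncard < 2 * m + 1).image Sum.inr,
    Pad.base G m, Pad.pad_connected (by omega) hc, fun x => Pad.pad_degree hf hD x, ?_,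
    Pad.base_padHom Φ, ?_, hpc, hpu⟩
  · rintro (v | q)
    · obtain ⟨g, hg⟩ := cover v
      exact ⟨g, mem_union_left _ (mem_image_of_mem _ hg)⟩
    · obtain ⟨g, hg⟩ := cover q.1.1
      refine ⟨g, mem_union_right _ (mem_image.2 ⟨_, mem_subtype.2 ?_, rfl⟩)⟩
      exact mem_product.2 ⟨hg, mem_product.2 ⟨mem_univ _, mem_univ _⟩⟩
  · intro free g x hx
    exact free g _ ((Pad.base_padHom Φ g x).symm.trans (congrArg (Pad.base G m) hx))

/-- Every connected locally finite graph with a free action with finitely many orbits, regular or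
not, has a nonuniqueness phase. -/
def PhaseQT (Γ : Type) [Group Γ] : Prop :=
  ∀ (V : Type) (G : SimpleGraph V), G.Connected → (∀ v, (G.neighborSet v).Finite) →
    ∀ Φ : Γ →* (G ≃g G), (∀ g v, Φ g v = v → g = 1) →
      ∀ R : Finset V, (∀ v, ∃ g, Φ g v ∈ R) → pc G < pu G

/-- Regularity is not needed in a nonuniqueness phase. -/
theorem phaseQT_of_nonuniquePhase {Γ : Type} [Group Γ] (h : SG.NonuniquePhase Γ) : PhaseQT Γ := by
  intro V G hc hf Φ free R cover
  obtain ⟨W, H, d, Ψ, R', ρ, hH, hd, hR, -, hfree, hpc, hpu⟩ :=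
    Pad.exists_regular hc hf Φ R cover
  rw [← hpc, ← hpu]
  exact h.1 W H d hH hd Ψ (hfree free) R' hR

/-- Conversely the regular graphs and the Cayley graphs are covered. -/
theorem nonuniquePhase_of_phaseQT {Γ : Type} [Group Γ] (h : PhaseQT Γ) : SG.NonuniquePhase Γ := by
  refine ⟨fun V G d hc hd Φ free R cover =>
      h V G hc (fun v => Set.finite_of_encard_eq_coe (hd v)) Φ free R cover,
    fun Δ _ s hfin hgen ψ hψ hidx => ?_⟩
  obtain ⟨hconn, d, hd⟩ := TL.connected_regular_mulCayley s hfin hgen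
  obtain ⟨Φ, R, free, cover⟩ := FF.exists_leftAction (SimpleGraph.mulCayley s)
    (fun _ _ _ => SimpleGraph.mulCayley_adj_mul_iff_right) ψ hψ hidx
  exact h _ _ hconn (fun v => Set.finite_of_encard_eq_coe (hd v)) Φ free R cover

end Vale.Agent.P165
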