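import Vale.Agent.P165.Defs

/-!
# Padding a graph to a regular one by pendant finite gadgets

At each vertex `u` of degree `n` we attach `2 m + 1 - n` copies of a finite graph whose vertices have
degree `2 m + 1`, apart from a root of degree `2 m` joined to `u` by one edge. Automorphisms extend,
and the added edges do not join old vertices.
-/

namespace Vale.Agent.P165.Pad

open Finset

/-- The vertices of one gadget. -/
abbrev Gad (m : ℕ) : Type := Option (Bool ⊕ (Fin m × Bool))

/-- The pairs missing from the complete graph on a gadget. -/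
def miss {m : ℕ} : Gad m → Gad m → Prop
  | none, some (.inl _) => True
  | some (.inl _), none => True
  | some (.inr a), some (.inr b) => a.1 = b.1
  | _, _ => False

/-- Adjacency inside a gadget. -/
def gadAdj {m : ℕ} (x y : Gad m) : Prop := x ≠ y ∧ ¬ miss x y

theorem miss_symm {m : ℕ} : ∀ x y : Gad m, miss x y → miss y x
  | none, some (.inl _), _ => trivial
  | some (.inl _), none, _ => trivial
  | some (.inr _), some (.inr _), h => Eq.symm h
  | none, none, h => h.elim
  | none, some (.inr _), h => h.elim
  | some (.inl _), some (.inl _), h => h.elim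
  | some (.inl _), some (.inr _), h => h.elim
  | some (.inr _), none, h => h.elim
  | some (.inr _), some (.inl _), h => h.elim

theorem card_gad (m : ℕ) : Fintype.card (Gad m) = 2 * m + 3 := by
  simp [Fintype.card_option, Fintype.card_sum, Fintype.card_prod]
  omega

theorem gad_degree {m : ℕ} (x : Gad m) :
    {y | gadAdj x y}.encard = (if x = none then 2 * m else 2 * m + 1 : ℕ) := by
  classical
  rcases x with _ | b | ⟨j, b⟩
  · have e : {y : Gad m | gadAdj none y} =
        ↑({none, some (.inl true), some (.inl false)}ᶜ : Finset (Gad m)) := by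
      ext y
      rcases y with _ | c | c <;> simp [gadAdj, miss]
    rw [e, Set.encard_coe_eq_coe_finsetCard, if_pos rfl, card_compl, card_gad]
    simp
  · have e : {y : Gad m | gadAdj (some (.inl b)) y} =
        ↑({none, some (.inl b)}ᶜ : Finset (Gad m)) := by
      ext y
      rcases y with _ | c | c <;> simp [gadAdj, miss, eq_comm]
    rw [e, Set.encard_coe_eq_coe_finsetCard, if_neg (by simp), card_compl, card_gad]
    simp
  · have e : {y : Gad m | gadAdj (some (.inr (j, b))) y} =
        ↑({some (.inr (j, b)), some (.inr (j, !b))}ᶜ : Finset (Gad m)) := by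
      ext y
      rcases y with _ | c | ⟨k, c⟩ <;> simp [gadAdj, miss]
      cases b <;> cases c <;> simp [eq_comm]
    rw [e, Set.encard_coe_eq_coe_finsetCard, if_neg (by simp), card_compl, card_gad]
    simp

variable {V : Type} (G : SimpleGraph V) (m : ℕ)

/-- The new vertices: a copy of the gadget for each missing unit of degree. -/
abbrev New : Type :=
  {q : V × Fin (2 * m + 1) × Gad m // (q.2.1 : ℕ) + (G.neighborSet q.1).ncard < 2 * m + 1}

/-- Adjacency of the padded graph. -/
def padRel : V ⊕ New G m → V ⊕ New G m → Prop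
  | .inl u, .inl v => G.Adj u v
  | .inl u, .inr q => q.1.1 = u ∧ q.1.2.2 = none
  | .inr q, .inl u => q.1.1 = u ∧ q.1.2.2 = none
  | .inr q, .inr q' => q.1.1 = q'.1.1 ∧ q.1.2.1 = q'.1.2.1 ∧ gadAdj q.1.2.2 q'.1.2.2

/-- The padded graph. -/
def padGraph : SimpleGraph (V ⊕ New G m) where
  Adj := padRel G m
  symm := ⟨fun x y h => by
    rcases x with u | q <;> rcases y with v | q'
    · exact G.symm.symm _ _ h
    · exact h
    · exact h
    · exact ⟨h.1.symm, h.2.1.symm, h.2.2.1.symm, fun h' => h.2.2.2 (miss_symm _ _ h')⟩⟩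
  loopless := ⟨fun x h => by
    rcases x with u | q
    · exact G.irrefl h
    · exact h.2.2.1 rfl⟩

/-- The old vertex under a vertex of the padded graph. -/
def base : V ⊕ New G m → V := Sum.elim id fun q => q.1.1

variable {G m}

theorem finite_fibre (v : V) : {x : V ⊕ New G m | base G m x = v}.Finite := by
  have : Finite {q : New G m // q.1.1 = v} :=
    Finite.of_injective (fun q => q.1.1.2) fun a b h => by
      have h1 := a.2.trans b.2.symm
      exact Subtype.ext (Subtype.ext (Prod.ext h1 h))
  refine ((Set.finite_singleton (Sum.inl v)).union ((Set.finite_range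
    fun q : {q : New G m // q.1.1 = v} => (Sum.inr q.1 : V ⊕ New G m)))).subset ?_
  rintro (u | q) h
  · exact Or.inl (congrArg Sum.inl h)
  · exact Or.inr ⟨⟨q, h⟩, rfl⟩

theorem adj_base {x y : V ⊕ New G m} (h : (padGraph G m).Adj x y) :
    base G m x = base G m y ∨ (∃ u v, x = .inl u ∧ y = .inl v) := by
  rcases x with u | q <;> rcases y with v | q'
  · exact Or.inr ⟨u, v, rfl, rfl⟩
  · exact Or.inl h.1.symm
  · exact Or.inl h.1
  · exact Or.inl h.1

theorem pad_degree (hf : ∀ v, (G.neighborSet v).Finite)
    (hm : ∀ v, (G.neighborSet v).ncard ≤ 2 * m + 1) (x : V ⊕ New G m) :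
    ((padGraph G m).neighborSet x).encard = (2 * m + 1 : ℕ) := by
  rcases x with u | ⟨⟨u, i, w⟩, hi⟩
  · set n := (G.neighborSet u).ncard with hn
    let f : Fin (2 * m + 1 - n) → V ⊕ New G m := fun i =>
      .inr ⟨(u, ⟨i, by omega⟩, none), by show (i : ℕ) + n < _; omega⟩
    have e : (padGraph G m).neighborSet (.inl u) =
        Sum.inl '' G.neighborSet u ∪ Set.range f := by
      ext y
      rcases y with v | ⟨⟨v, i, w⟩, hi⟩
      · simp [f, padGraph, padRel, SimpleGraph.neighborSet]
      · simp only [SimpleGraph.mem_neighborSet, Set.mem_union, Set.mem_image, reduceCtorEq,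
          and_false, exists_false, false_or, Set.mem_range, f, Sum.inr.injEq, Subtype.mk.injEq,
          Prod.mk.injEq]
        constructor
        · rintro ⟨rfl, rfl⟩
          have hi' : (i : ℕ) + n < 2 * m + 1 := hi
          exact ⟨⟨i, by omega⟩, rfl, rfl, rfl⟩
        · rintro ⟨j, rfl, -, rfl⟩
          exact ⟨rfl, rfl⟩
    have hinj : Function.Injective f := fun a b h => by
      simp [f, Fin.ext_iff] at h
      exact Fin.ext h
    have hdis : Disjoint (Sum.inl '' G.neighborSet u) (Set.range f) := by
      rw [Set.disjoint_left]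
      rintro - ⟨v, -, rfl⟩ ⟨i, hi⟩
      simp [f] at hi
    rw [e, Set.encard_union_eq hdis, Sum.inl_injective.injOn.encard_image, ← Set.image_univ,
      hinj.injOn.encard_image, Set.encard_univ, ENat.card_eq_coe_fintype_card, Fintype.card_fin,
      ← (hf u).cast_ncard_eq, ← Nat.cast_add, ← hn]
    congr 1
    have := hm u
    omega
  · let f : Gad m → V ⊕ New G m := fun y => .inr ⟨(u, i, y), hi⟩
    have hinj : Function.Injective f := fun a b h => by simpa [f] using h
    have e : (padGraph G m).neighborSet (.inr ⟨(u, i, w), hi⟩) =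
        f '' {y | gadAdj w y} ∪ {z | z = .inl u ∧ w = none} := by
      ext y
      rcases y with v | ⟨⟨v, j, y⟩, hj⟩
      · simp [f, padGraph, padRel, SimpleGraph.neighborSet, eq_comm]
      · simp only [SimpleGraph.mem_neighborSet, Set.mem_union, Set.mem_image, Set.mem_ofPred_eq, f,
          Sum.inr.injEq, Subtype.mk.injEq, Prod.mk.injEq, reduceCtorEq, false_and, or_false]
        constructor
        · rintro ⟨h1, h2, h3⟩
          exact ⟨y, h3, h1, h2, rfl⟩
        · rintro ⟨z, h3, h1, h2, rfl⟩
          exact ⟨h1, h2, h3⟩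
    have hdis : Disjoint (f '' {y | gadAdj w y}) {z | z = .inl u ∧ w = none} := by
      rw [Set.disjoint_left]
      rintro - ⟨y, -, rfl⟩ ⟨h, -⟩
      simp [f] at h
    rw [e, Set.encard_union_eq hdis, hinj.injOn.encard_image, gad_degree]
    by_cases hw : w = none
    · simp [hw]
    · simp [hw]

theorem pad_connected (hm : 1 ≤ m) (hc : G.Connected) : (padGraph G m).Connected := by
  let h : G →g padGraph G m := ⟨Sum.inl, fun {a b} hab => hab⟩
  have adj : ∀ {x y : V ⊕ New G m}, padRel G m x y → (padGraph G m).Adj x y := fun h => h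
  have key : ∀ x : V ⊕ New G m, (padGraph G m).Reachable x (.inl (base G m x)) := by
    rintro (u | ⟨⟨u, i, w⟩, hi⟩)
    · exact .refl _
    have root : (padGraph G m).Adj (.inr ⟨(u, i, none), hi⟩) (.inl u) := ⟨rfl, rfl⟩
    have side : ∀ b : Fin m × Bool, (padGraph G m).Adj (.inr ⟨(u, i, some (.inr b)), hi⟩)
        (.inr ⟨(u, i, none), hi⟩) := fun b => ⟨rfl, rfl, by simp [gadAdj, miss]⟩
    rcases w with _ | b | b
    · exact root.reachable
    · have : (padGraph G m).Adj (.inr ⟨(u, i, some (.inl b)), hi⟩)
          (.inr ⟨(u, i, some (.inr (⟨0, hm⟩, true))), hi⟩) := ⟨rfl, rfl, by simp [gadAdj, miss]⟩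
      exact this.reachable.trans ((side _).reachable.trans root.reachable)
    · exact (side b).reachable.trans root.reachable
  have : Nonempty (V ⊕ New G m) := ⟨.inl hc.nonempty.some⟩
  exact ⟨fun x y => (key x).trans (((hc.preconnected _ _).map h).trans (key y).symm)⟩

theorem ncard_iso (φ : G ≃g G) (v : V) :
    (G.neighborSet (φ v)).ncard = (G.neighborSet v).ncard :=
  (Nat.card_congr (φ.mapNeighborSet v)).symm

/-- Automorphisms act on the padded graph. -/
def padHom {Γ : Type} [Group Γ] (Φ : Γ →* (G ≃g G)) : Γ →* (padGraph G m ≃g padGraph G m) where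
  toFun g :=
    { toEquiv := Equiv.sumCongr (Φ g).toEquiv
        (Equiv.subtypeEquiv ((Φ g).toEquiv.prodCongr (Equiv.refl _)) fun q => by
          show _ ↔ (q.2.1 : ℕ) + (G.neighborSet (Φ g q.1)).ncard < 2 * m + 1
          rw [ncard_iso])
      map_rel_iff' := by
        rintro (u | q) (v | q')
        · exact (Φ g).map_rel_iff
        · exact and_congr_left' ⟨fun h => (Φ g).injective h, fun h => congrArg (Φ g) h⟩
        · exact and_congr_left' ⟨fun h => (Φ g).injective h, fun h => congrArg (Φ g) h⟩
        · exact and_congr_left' ⟨fun h => (Φ g).injective h, fun h => congrArg (Φ g) h⟩ }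
  map_one' := by
    refine RelIso.ext fun x => ?_
    rcases x with u | q
    · show Sum.inl (Φ 1 u) = _
      rw [map_one]; rfl
    · refine congrArg Sum.inr (Subtype.ext (Prod.ext ?_ rfl))
      show Φ 1 q.1.1 = _
      rw [map_one]; rfl
  map_mul' g h := by
    refine RelIso.ext fun x => ?_
    rcases x with u | q
    · show Sum.inl (Φ (g * h) u) = Sum.inl (Φ g (Φ h u))
      rw [map_mul]; rfl
    · refine congrArg Sum.inr (Subtype.ext (Prod.ext ?_ rfl))
      show Φ (g * h) q.1.1 = Φ g (Φ h q.1.1)
      rw [map_mul]; rfl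

theorem base_padHom {Γ : Type} [Group Γ] (Φ : Γ →* (G ≃g G)) (g : Γ) (x : V ⊕ New G m) :
    base G m (padHom Φ g x) = Φ g (base G m x) := by
  rcases x with u | q <;> rfl

end Vale.Agent.P165.Pad
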