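import Vale.Agent.P165.Pad.Gadget
import Vale.Agent.P165.Perc
import Vale.Agent.P165.Product

/-!
# The padded graph has the same thresholds

An open path between old vertices can be shortened to old edges, and an infinite cluster meets the
old vertex under each of its points, so infinite clusters correspond. The old edges carry the
Bernoulli law.
-/

namespace Vale.Agent.P165.Pad

open MeasureTheory ProbabilityTheory

variable {V : Type} {G : SimpleGraph V} {m : ℕ}

/-- An old edge in the padded graph. -/
def oldEdge (e : G.edgeSet) : (padGraph G m).edgeSet :=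
  ⟨Sym2.map Sum.inl e.1, by
    obtain ⟨e, he⟩ := e
    induction e using Sym2.ind with
    | h u v => exact he⟩

theorem oldEdge_injective : Function.Injective (oldEdge (G := G) (m := m)) := fun _ _ h =>
  Subtype.ext (Sym2.map.injective Sum.inl_injective (congrArg Subtype.val h))

/-- The states of the old edges. -/
def restr (ω : Config (padGraph G m)) : Config G := fun e => ω (oldEdge e)

theorem measurable_restr : Measurable (restr (G := G) (m := m)) :=
  measurable_pi_lambda _ fun e => measurable_pi_apply (oldEdge e)

theorem perc_map_restr (p : unitInterval) :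
    (perc (padGraph G m) p).map restr = perc G p := by
  classical
  rw [perc, perc]
  refine Measure.eq_infinitePi _ fun S t ht => ?_
  rw [Measure.map_apply measurable_restr (MeasurableSet.pi (Finset.countable_toSet _) fun i _ => ht i)]
  set t' : (padGraph G m).edgeSet → Set Bool := Function.extend oldEdge t fun _ => Set.univ
  have he : ∀ i, t' (oldEdge i) = t i := fun i => oldEdge_injective.extend_apply t _ i
  have hpre : restr ⁻¹' Set.pi ↑S t =
      Set.pi (SetLike.coe (S.map (⟨oldEdge, oldEdge_injective⟩ : G.edgeSet ↪ (padGraph G m).edgeSet))) t' := by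
    ext ω
    simp only [Set.mem_preimage, Set.mem_pi, Finset.coe_map, Set.forall_mem_image,
      Function.Embedding.coeFn_mk, he]
    rfl
  rw [hpre, Measure.infinitePi_pi _ fun _ _ => MeasurableSet.of_discrete, Finset.prod_map]
  simp only [Function.Embedding.coeFn_mk, he]

/-- Old open paths are open paths. -/
def oldHom (ω : Config (padGraph G m)) : openGraph G (restr ω) →g openGraph (padGraph G m) ω :=
  ⟨Sum.inl, fun {a b} hab => by
    obtain ⟨h, hω⟩ := hab
    exact ⟨h, hω⟩⟩

theorem reach_base {ω : Config (padGraph G m)} {x y : V ⊕ New G m}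
    (h : (openGraph (padGraph G m) ω).Reachable x y) :
    (openGraph G (restr ω)).Reachable (base G m x) (base G m y) := by
  obtain ⟨w⟩ := h
  induction w with
  | nil => exact .refl _
  | @cons a b c hab _ ih =>
    obtain ⟨hG, hω⟩ := hab
    rcases adj_base hG with h | ⟨u, v, rfl, rfl⟩
    · rw [h]; exact ih
    · exact SimpleGraph.Reachable.trans
        (SimpleGraph.Adj.reachable (G := openGraph G (restr ω)) ⟨hG, hω⟩) ih

theorem reach_old {ω : Config (padGraph G m)} {x y : V ⊕ New G m}
    (h : (openGraph (padGraph G m) ω).Reachable x y) (hne : base G m x ≠ base G m y) :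
    (openGraph (padGraph G m) ω).Reachable x (.inl (base G m x)) := by
  obtain ⟨w⟩ := h
  induction w with
  | nil => exact absurd rfl hne
  | @cons a b c hab _ ih =>
    rcases adj_base hab.1 with h | ⟨u, v, rfl, rfl⟩
    · rw [h]; exact hab.reachable.trans (ih (h ▸ hne))
    · exact .refl _

theorem infAt_base {ω : Config (padGraph G m)} {x : V ⊕ New G m}
    (h : ω ∈ infAt (padGraph G m) x) :
    restr ω ∈ infAt G (base G m x) ∧
      (openGraph (padGraph G m) ω).Reachable x (.inl (base G m x)) := by
  have hne : ∀ t : Set V, t.Finite →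
      ∃ y, (openGraph (padGraph G m) ω).Reachable x y ∧ base G m y ∉ t := fun t ht => by
    by_contra hall
    push Not at hall
    exact h ((ht.biUnion fun v _ => finite_fibre (G := G) (m := m) v).subset fun y hy =>
      Set.mem_biUnion (hall y hy) rfl)
  constructor
  · intro hfin
    obtain ⟨y, hy, hyt⟩ := hne _ hfin
    exact hyt (reach_base hy)
  · obtain ⟨y, hy, hyt⟩ := hne _ (Set.finite_singleton (base G m x))
    exact reach_old hy fun h => hyt (h ▸ rfl)

theorem infAt_old {ω : Config (padGraph G m)} {v : V} (h : restr ω ∈ infAt G v) :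
    ω ∈ infAt (padGraph G m) (.inl v) :=
  (h.image Sum.inl_injective.injOn).mono (by rintro - ⟨u, hu, rfl⟩; exact hu.map (oldHom ω))

theorem hasInfinite_pad : hasInfinite (padGraph G m) = restr ⁻¹' hasInfinite G := by
  ext ω
  simp only [hasInfinite_eq, Set.mem_preimage, Set.mem_iUnion]
  exact ⟨fun ⟨x, hx⟩ => ⟨_, (infAt_base hx).1⟩, fun ⟨v, hv⟩ => ⟨_, infAt_old hv⟩⟩

theorem uniqueInfinite_pad : uniqueInfinite (padGraph G m) = restr ⁻¹' uniqueInfinite G := by
  ext ω
  simp only [uniqueInfinite_eq, hasInfinite_pad, Set.mem_preimage, Set.mem_sdiff,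
    Set.mem_iUnion, Set.mem_inter_iff, not_exists, not_and, not_not, and_congr_right_iff]
  intro _
  constructor
  · intro h y z hyz
    exact reach_base (h _ _ ⟨infAt_old hyz.1, infAt_old hyz.2⟩)
  · intro h x y hxy
    have hx := infAt_base hxy.1
    have hy := infAt_base hxy.2
    exact hx.2.trans (((h _ _ ⟨hx.1, hy.1⟩).map (oldHom ω)).trans hy.2.symm)

theorem exists_listing [Nontrivial V] (hc : G.Connected) {D : ℕ}
    (hf : ∀ v, (G.neighborSet v).Finite) (hD : ∀ v, (G.neighborSet v).ncard ≤ D) :
    ∃ nb : V → Fin D → V, Listing G nb := by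
  classical
  have hex : ∀ v, ∃ l : Fin D → V, Set.range l = G.neighborSet v := by
    intro v
    obtain ⟨w, hw⟩ := hc.preconnected.exists_adj_of_nontrivial v
    set n := (G.neighborSet v).ncard with hn
    have : Nonempty (G.neighborSet v) := ⟨⟨w, hw⟩⟩
    have := (hf v).to_subtype
    obtain ⟨e⟩ : Nonempty (Fin n ≃ G.neighborSet v) :=
      ⟨(Finite.equivFinOfCardEq (Nat.card_coe_set_eq _)).symm⟩
    refine ⟨fun i => if h : (i : ℕ) < n then (e ⟨i, h⟩ : V) else w,
      Set.Subset.antisymm ?_ fun u hu => ?_⟩
    · rintro u ⟨i, rfl⟩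
      dsimp only
      split
      · exact (e _).2
      · exact hw
    · obtain ⟨i, hi⟩ := e.surjective ⟨u, hu⟩
      refine ⟨⟨i, lt_of_lt_of_le i.2 (hD v)⟩, ?_⟩
      simp only [i.2, dif_pos, Fin.eta, hi]
  choose nb hnb using hex
  exact ⟨nb, ⟨fun u v => by rw [← SimpleGraph.mem_neighborSet, ← hnb]; rfl⟩⟩

theorem measurableSet_events (hc : G.Connected) {D : ℕ} (hf : ∀ v, (G.neighborSet v).Finite)
    (hD : ∀ v, (G.neighborSet v).ncard ≤ D) :
    MeasurableSet (hasInfinite G) ∧ MeasurableSet (uniqueInfinite G) := by
  classical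
  rcases subsingleton_or_nontrivial V with hV | hV
  · have : IsEmpty G.edgeSet := ⟨fun ⟨e, he⟩ => by
      induction e using Sym2.ind with
      | h u v => exact G.irrefl ((Subsingleton.elim u v) ▸ he : G.Adj v v)⟩
    exact ⟨Subsingleton.measurableSet, Subsingleton.measurableSet⟩
  obtain ⟨nb, hl⟩ := exists_listing hc hf hD
  have := countable_of_connected hl hc
  exact ⟨by rw [hasInfinite_eq]; exact MeasurableSet.iUnion fun y => measurableSet_infAt hl y,
    measurableSet_uniqueInfinite hl⟩

/-- The padded graph has the same thresholds. -/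
theorem pad_thresholds (hc : G.Connected) {D : ℕ} (hf : ∀ v, (G.neighborSet v).Finite)
    (hD : ∀ v, (G.neighborSet v).ncard ≤ D) :
    pc (padGraph G m) = pc G ∧ pu (padGraph G m) = pu G := by
  obtain ⟨h1, h2⟩ := measurableSet_events hc hf hD
  have e1 : ∀ p, perc (padGraph G m) p (hasInfinite (padGraph G m)) = perc G p (hasInfinite G) :=
    fun p => by conv_rhs => rw [← perc_map_restr (m := m) p, Measure.map_apply measurable_restr h1]
                rw [
      hasInfinite_pad]
  have e2 : ∀ p, perc (padGraph G m) p (uniqueInfinite (padGraph G m)) =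
      perc G p (uniqueInfinite G) :=
    fun p => by conv_rhs => rw [← perc_map_restr (m := m) p, Measure.map_apply measurable_restr h2]
                rw [
      uniqueInfinite_pad]
  exact ⟨by simp only [pc, e1], by simp only [pu, e2]⟩

end Vale.Agent.P165.Pad
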